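import Vale.Agent.P092.H542.Rp.Grp

/-!
P092, project RP, row P4 (helper542): the outputs for the group of `RP`.
-/

set_option linter.all false

open Finset Module

namespace Vale.Agent.P092.H542.Rp

open Vale.Agent.P092.H213.Rp (Nil eu egs Spl egS IsAut RP RP0)

section

variable {k : Type} [NontriviallyNormedField k] [CharZero k] {L : Type} [LieRing L]
  [LieAlgebra k L] {n : ℕ} {G : Type} [Group G] [TopologicalSpace G] {b : Basis (Fin n) k L}
  {ρ : G →* Module.End k L}

omit [CharZero k] in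
theorem Hyp.of_rp (hρ : RP b ρ) : Hyp ρ where
  simple := hρ.simple
  inj := fun g g' hg => hρ.emb.injective (by simp only [hg])
  lie := hρ.lie
  full := hρ.full
  gen := hρ.gen

omit [CharZero k] in
theorem Hyp.of_rp0 (hρ : RP0 b ρ) : Hyp ρ where
  simple := hρ.simple
  inj := fun g g' hg => hρ.emb.injective (by simp only [hg])
  lie := hρ.lie
  full := hρ.full
  gen := hρ.gen

/-- **Row P4**: the group is generated by the two opposite unipotent radicals of any split
element. -/
theorem gen_of (hρ : RP b ρ) (simple : ∀ N : Subgroup G, N.Normal → N = ⊥ ∨ N = ⊤) :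
    ∀ h : L, Spl k h → h ≠ 0 → Subgroup.closure {g : G | ∃ x, (x ∈ egS k h (Set.Ioi 0) ∨
      x ∈ egS k h (Set.Iio 0)) ∧ ρ g = eu k x} = ⊤ := by
  intro h hs hh
  haveI : Module.Finite k L := Module.Finite.of_basis b
  exact gen_of' (Hyp.of_rp hρ) simple hs hh

/-- every element of the group is in the big cell up to the group generated by the opposite
unipotent radicals -/
theorem big_of (hρ : RP b ρ) {h : L} (hs : Spl k h) (hh : h ≠ 0) (g : G) :
    ∃ a ∈ Subgroup.closure {g : G | ∃ x, (x ∈ egS k h (Set.Ioi 0) ∨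
      x ∈ egS k h (Set.Iio 0)) ∧ ρ g = eu k x},
      IsCompl ((egS k h (Set.Ici 0)).map (ρ (a * g))) (egS k h (Set.Iio 0)) := by
  haveI : Module.Finite k L := Module.Finite.of_basis b
  exact big (Hyp.of_rp hρ) hs hh g

/-- the group generated by the opposite unipotent radicals is normal -/
theorem normal_of (hρ : RP b ρ) {h : L} (hs : Spl k h) (hh : h ≠ 0) :
    (Subgroup.closure {g : G | ∃ x, (x ∈ egS k h (Set.Ioi 0) ∨
      x ∈ egS k h (Set.Iio 0)) ∧ ρ g = eu k x}).Normal := by
  haveI : Module.Finite k L := Module.Finite.of_basis b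
  exact Gp_normal (Hyp.of_rp hρ) hs hh

/-- `G = G' P` -/
theorem exists_par_of (hρ : RP b ρ) {h : L} (hs : Spl k h) (hh : h ≠ 0) (g : G) :
    ∃ a ∈ Subgroup.closure {g : G | ∃ x, (x ∈ egS k h (Set.Ioi 0) ∨
      x ∈ egS k h (Set.Iio 0)) ∧ ρ g = eu k x},
      (∀ x ∈ egS k h (Set.Ici 0), ρ (a * g) x ∈ egS k h (Set.Ici 0)) ∧
      (∀ x ∈ egS k h (Set.Ici 0), ρ (a * g)⁻¹ x ∈ egS k h (Set.Ici 0)) := by
  haveI : Module.Finite k L := Module.Finite.of_basis b
  exact exists_par (Hyp.of_rp hρ) hs hh g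

end

end Vale.Agent.P092.H542.Rp
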