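import Vale.Agent.P092.H542.Rp.Gr

/-!
P092, project RP, row P4 (helper542): conjugacy of the opposite parabolic subalgebras under the
unipotent radical.
-/

set_option linter.all false

open Finset Module

namespace Vale.Agent.P092.H542.Rp

open Vale.Agent.P092.H213.Rp (Nil eu egs Spl egS IsAut)

variable {k L : Type} [Field k] [CharZero k] [LieRing L] [LieAlgebra k L] [Module.Finite k L]
  {h : L}

theorem nil_pow {x : L} (hx : Nil k x) : (LieAlgebra.ad k L x) ^ (finrank k L) = 0 := by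
  have h1 := _root_.IsNilpotent.charpoly_eq_X_pow_finrank (φ := LieAlgebra.ad k L x) hx
  have h2 := LinearMap.aeval_self_charpoly (LieAlgebra.ad k L x)
  rw [h1] at h2
  simpa only [map_pow, Polynomial.aeval_X] using h2

theorem eu_apply {x : L} (hx : Nil k x) {N : ℕ} (hN : finrank k L ≤ N) (y : L) :
    eu k x y = ∑ i ∈ range N, ((i.factorial : k)⁻¹) • ((LieAlgebra.ad k L x) ^ i) y := by
  have h1 : (LieAlgebra.ad k L x) ^ N = 0 := by
    obtain ⟨m, rfl⟩ := Nat.exists_eq_add_of_le hN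
    rw [pow_add, nil_pow hx, zero_mul]
  rw [eu_eq hx, ex_eq_sum h1, LinearMap.sum_apply]
  rfl

/-- a subspace stable under `ad x` is stable under `eu x`. -/
theorem eu_mem {x : L} (hx : Nil k x) (P : Submodule k L) (hP : ∀ y ∈ P, ⁅x, y⁆ ∈ P) {y : L}
    (hy : y ∈ P) : eu k x y ∈ P := by
  rw [eu_apply hx le_rfl]
  have h1 : ∀ i : ℕ, ((LieAlgebra.ad k L x) ^ i) y ∈ P := by
    intro i
    induction i with
    | zero => simpa using hy
    | succ i ih =>
      rw [pow_succ', Module.End.mul_apply]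
      exact hP _ ih
  exact P.sum_mem fun i _ => P.smul_mem _ (h1 i)

theorem lie_pos_Ici {a b c : ℤ} (habc : c ≤ a + b) {x y : L} (hx : x ∈ egS k h (Set.Ici a))
    (hy : y ∈ egS k h (Set.Ici b)) : ⁅x, y⁆ ∈ egS k h (Set.Ici c) := by
  refine lie_mem_egS ?_ hx hy
  intro i hi j hj
  simp only [Set.mem_Ici] at *
  omega

theorem Ioi_eq_Ici : (Set.Ioi (0 : ℤ)) = Set.Ici 1 := by
  ext i; simp only [Set.mem_Ioi, Set.mem_Ici]; omega

theorem self_mem_egs_zero : h ∈ egs k h 0 := by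
  rw [mem_egs]; simp

theorem egS_split {a : ℤ} {x : L} (hx : x ∈ egS k h (Set.Ici a)) :
    ∃ y ∈ egs k h a, ∃ z ∈ egS k h (Set.Ici (a + 1)), x = y + z := by
  have h1 : egS k h (Set.Ici a) ≤ egs k h a ⊔ egS k h (Set.Ici (a + 1)) := by
    refine egS_le fun i hi => ?_
    rcases eq_or_lt_of_le (show a ≤ i from hi) with h2 | h2
    · subst h2; exact le_sup_left
    · exact (egs_le (show i ∈ Set.Ici (a + 1) by simp only [Set.mem_Ici]; omega)).trans le_sup_right
  obtain ⟨y, hy, z, hz, hyz⟩ := Submodule.mem_sup.1 (h1 hx)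
  exact ⟨y, hy, z, hz, hyz.symm⟩

theorem pow_sub_mem {n : ℕ} {z δ : L} (hz : z ∈ egS k h (Set.Ici 1))
    (hδ : δ ∈ egS k h (Set.Ici ((n : ℤ) + 1))) (m : ℕ) :
    ((LieAlgebra.ad k L z) ^ (m + 1)) h ∈ egS k h (Set.Ici 1) ∧
    ((LieAlgebra.ad k L (z + δ)) ^ (m + 1)) h - ((LieAlgebra.ad k L z) ^ (m + 1)) h ∈
      egS k h (Set.Ici ((n : ℤ) + 1)) ∧
    ((LieAlgebra.ad k L (z + δ)) ^ (m + 2)) h - ((LieAlgebra.ad k L z) ^ (m + 2)) h ∈
      egS k h (Set.Ici ((n : ℤ) + 2)) := by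
  have hh : h ∈ egS k h (Set.Ici 0) := egs_le (Set.mem_Ici.2 le_rfl) self_mem_egs_zero
  have hδ1 : δ ∈ egS k h (Set.Ici 1) := egS_mono (Set.Ici_subset_Ici.2 (by omega)) hδ
  have key : ∀ m : ℕ, ((LieAlgebra.ad k L (z + δ)) ^ (m + 1)) h - ((LieAlgebra.ad k L z) ^ (m + 1)) h
      = ⁅z + δ, ((LieAlgebra.ad k L (z + δ)) ^ m) h - ((LieAlgebra.ad k L z) ^ m) h⁆ +
        ⁅δ, ((LieAlgebra.ad k L z) ^ m) h⁆ := by
    intro m
    rw [pow_succ', pow_succ', Module.End.mul_apply, Module.End.mul_apply, LieAlgebra.ad_apply,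
      LieAlgebra.ad_apply, lie_sub, add_lie, add_lie]
    abel
  have main : ∀ m : ℕ, ((LieAlgebra.ad k L z) ^ (m + 1)) h ∈ egS k h (Set.Ici 1) ∧
    ((LieAlgebra.ad k L (z + δ)) ^ (m + 1)) h - ((LieAlgebra.ad k L z) ^ (m + 1)) h ∈
      egS k h (Set.Ici ((n : ℤ) + 1)) := by
    intro m
    induction m with
    | zero =>
      constructor
      · simp only [zero_add, pow_one, LieAlgebra.ad_apply]
        exact lie_pos_Ici (by omega) hz hh
      · rw [key]
        simp only [pow_zero, sub_self, lie_zero, zero_add, Module.End.one_apply]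
        exact lie_pos_Ici (by omega) hδ hh
    | succ m ih =>
      constructor
      · rw [pow_succ', Module.End.mul_apply, LieAlgebra.ad_apply]
        exact lie_pos_Ici (by omega) hz ih.1
      · rw [key]
        refine Submodule.add_mem _ ?_ ?_
        · exact lie_pos_Ici (by omega) (Submodule.add_mem _ hz hδ1) ih.2
        · exact lie_pos_Ici (by omega) hδ ih.1
  refine ⟨(main m).1, (main m).2, ?_⟩
  rw [key]
  refine Submodule.add_mem _ ?_ ?_
  · exact lie_pos_Ici (by omega) (Submodule.add_mem _ hz hδ1) (main m).2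
  · exact lie_pos_Ici (by omega) hδ (main m).1

theorem exists_eu (hs : Spl k h) {β : L} (hβ : β ∈ egS k h (Set.Ioi 0)) :
    ∃ z ∈ egS k h (Set.Ioi 0), eu k z h = h + β := by
  obtain ⟨M, hM⟩ := exists_bound (k := k) h
  have main : ∀ n : ℕ, ∃ z ∈ egS k h (Set.Ioi 0), eu k z h - (h + β) ∈ egS k h (Set.Ici ((n : ℤ) + 1)) := by
    intro n
    induction n with
    | zero =>
      refine ⟨0, Submodule.zero_mem _, ?_⟩
      rw [eu_zero]
      simp only [Module.End.one_apply, sub_add_cancel_left, Nat.cast_zero, zero_add]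
      rw [← Ioi_eq_Ici]
      exact Submodule.neg_mem _ hβ
    | succ n ih =>
      obtain ⟨z, hz, he⟩ := ih
      obtain ⟨e1, he1, e2, he2, hee⟩ := egS_split he
      set δ : L := ((n : k) + 1)⁻¹ • e1 with hδ_def
      have hδ : δ ∈ egs k h ((n : ℤ) + 1) := Submodule.smul_mem _ _ he1
      have hδ' : δ ∈ egS k h (Set.Ici ((n : ℤ) + 1)) := egs_le (Set.mem_Ici.2 le_rfl) hδ
      have hz' : z ∈ egS k h (Set.Ici 1) := by rw [← Ioi_eq_Ici]; exact hz
      have hzδ : z + δ ∈ egS k h (Set.Ioi 0) := by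
        refine Submodule.add_mem _ hz ?_
        rw [Ioi_eq_Ici]
        exact egS_mono (Set.Ici_subset_Ici.2 (by omega)) hδ'
      refine ⟨z + δ, hzδ, ?_⟩
      have h1 := eu_apply (nil_pos hs hzδ) (N := finrank k L + 2) (by omega) h
      have h2 := eu_apply (nil_pos hs hz) (N := finrank k L + 2) (by omega) h
      have h3 : eu k (z + δ) h - eu k z h + e1 ∈ egS k h (Set.Ici ((n : ℤ) + 2)) := by
        rw [h1, h2, ← sum_sub_distrib, sum_range_succ', sum_range_succ']
        have h4 : ((((0 + 1).factorial : ℕ) : k)⁻¹ • ((LieAlgebra.ad k L (z + δ)) ^ (0 + 1)) h -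
            (((0 + 1).factorial : ℕ) : k)⁻¹ • ((LieAlgebra.ad k L z) ^ (0 + 1)) h) = - e1 := by
          simp only [zero_add, Nat.factorial_one, Nat.cast_one, inv_one, one_smul, pow_one,
            LieAlgebra.ad_apply, add_lie, add_sub_cancel_left]
          rw [← lie_skew, mem_egs.1 hδ, hδ_def, smul_smul]
          have : (((n : ℤ) + 1 : ℤ) : k) * ((n : k) + 1)⁻¹ = 1 := by
            push_cast
            exact mul_inv_cancel₀ (Nat.cast_add_one_ne_zero n)
          rw [this, one_smul]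
        rw [h4]
        have h5 : ((((0).factorial : ℕ) : k)⁻¹ • ((LieAlgebra.ad k L (z + δ)) ^ 0) h -
            (((0).factorial : ℕ) : k)⁻¹ • ((LieAlgebra.ad k L z) ^ 0) h) = 0 := by simp
        rw [h5, add_zero, neg_add_cancel_right]
        refine Submodule.sum_mem _ fun m _ => ?_
        rw [← smul_sub]
        exact Submodule.smul_mem _ _ (pow_sub_mem hz' hδ' m).2.2
      have h6 : eu k (z + δ) h - (h + β) = (eu k (z + δ) h - eu k z h + e1) + e2 := by
        have : eu k z h - (h + β) = e1 + e2 := hee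
        have h7 : h + β = eu k z h - (e1 + e2) := by rw [← this]; abel
        rw [h7]; abel
      rw [h6]
      push_cast
      have h8 : ((n : ℤ) + 1 + 1) = (n : ℤ) + 2 := by ring
      rw [h8]
      rw [h8] at he2
      exact Submodule.add_mem _ h3 he2
  obtain ⟨z, hz, he⟩ := main M
  rw [egS_Ici_bot hM (by omega)] at he
  exact ⟨z, hz, sub_eq_zero.1 (by simpa using he)⟩

theorem eu_mem_Ioi (hs : Spl k h) {z : L} (hz : z ∈ egS k h (Set.Ioi 0)) {x : L}
    (hx : x ∈ egS k h (Set.Ioi 0)) : eu k z x ∈ egS k h (Set.Ioi 0) := by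
  refine eu_mem (nil_pos hs hz) _ (fun y hy => ?_) hx
  rw [Ioi_eq_Ici] at *
  exact lie_pos_Ici (by omega) hz hy

theorem eu_mem_Ici (hs : Spl k h) {z : L} (hz : z ∈ egS k h (Set.Ioi 0)) {x : L}
    (hx : x ∈ egS k h (Set.Ici 0)) : eu k z x ∈ egS k h (Set.Ici 0) := by
  refine eu_mem (nil_pos hs hz) _ (fun y hy => ?_) hx
  rw [Ioi_eq_Ici] at hz
  exact lie_pos_Ici (by omega) hz hy

theorem isCompl_Ioi_Iic : IsCompl (Set.Iic (0 : ℤ)) (Set.Ioi 0) := by
  refine IsCompl.of_eq ?_ ?_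
  · ext i; simp
  · ext i; simp [le_or_gt]

theorem isCompl_Ici_Iio : IsCompl (Set.Ici (0 : ℤ)) (Set.Iio 0) := by
  refine IsCompl.of_eq ?_ ?_
  · ext i; simp
  · ext i; simp [le_or_gt]

/-- Complements of the nilradical `L_{>0}` which are subalgebras are conjugate to `L_{≤0}`. -/
theorem par_pos (hs : Spl k h) (q : LieSubalgebra k L)
    (hq : IsCompl q.toSubmodule (egS k h (Set.Ioi 0))) :
    ∃ z ∈ egS k h (Set.Ioi 0), q.toSubmodule = (egS k h (Set.Iic 0)).map (eu k z) := by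
  obtain ⟨a, ha, b, hb, hab⟩ := Submodule.mem_sup.1
    (show h ∈ q.toSubmodule ⊔ egS k h (Set.Ioi 0) by rw [hq.sup_eq_top]; trivial)
  obtain ⟨z, hz, hzh⟩ := exists_eu hs (Submodule.neg_mem _ hb)
  have hza : eu k z h = a := by rw [hzh, ← hab]; abel
  have hnz : Nil k z := nil_pos hs hz
  have hz' : -z ∈ egS k h (Set.Ioi 0) := Submodule.neg_mem _ hz
  refine ⟨z, hz, ?_⟩
  set q' := q.toSubmodule.map (eu k (-z)) with hq'
  have hst : ∀ x ∈ q', ⁅h, x⁆ ∈ q' := by
    rintro _ ⟨x, hx, rfl⟩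
    have h1 : h = eu k (-z) a := by rw [← hza, eu_neg_apply hnz]
    have h2 : ⁅h, eu k (-z) x⁆ = eu k (-z) ⁅a, x⁆ := by
      rw [eu_lie (Nil.neg hnz), ← h1]
    rw [h2]
    exact ⟨_, q.lie_mem ha hx, rfl⟩
  have hdis : ∀ x ∈ q', x ∈ egS k h (Set.Ioi 0) → x = 0 := by
    rintro _ ⟨x, hx, rfl⟩ h1
    have h2 := eu_mem_Ioi hs hz h1
    rw [eu_apply_neg hnz] at h2
    have h3 := Submodule.disjoint_def.1 hq.disjoint x hx h2
    rw [h3, map_zero]
  have hle : q' ≤ egS k h (Set.Iic 0) := by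
    rw [graded hs q' hst]
    refine iSup_le fun i => ?_
    rcases le_or_gt i 0 with h1 | h1
    · exact inf_le_right.trans (egs_le h1)
    · rintro x ⟨hx1, hx2⟩
      rw [hdis x hx1 (egs_le h1 hx2)]
      exact Submodule.zero_mem _
  have hsup : q' ⊔ egS k h (Set.Ioi 0) = ⊤ := by
    rw [eq_top_iff]
    intro x _
    obtain ⟨a, ha, b, hb, hab⟩ := Submodule.mem_sup.1
      (show eu k z x ∈ q.toSubmodule ⊔ egS k h (Set.Ioi 0) by rw [hq.sup_eq_top]; trivial)
    have : x = eu k (-z) a + eu k (-z) b := by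
      rw [← map_add, hab, eu_neg_apply hnz]
    rw [this]
    exact Submodule.add_mem_sup ⟨a, ha, rfl⟩ (eu_mem_Ioi hs hz' hb)
  have heq : q' = egS k h (Set.Iic 0) := by
    apply le_antisymm hle
    intro x hx
    obtain ⟨a, ha, b, hb, hab⟩ := Submodule.mem_sup.1
      (show x ∈ q' ⊔ egS k h (Set.Ioi 0) by rw [hsup]; trivial)
    have hb' : b ∈ egS k h (Set.Iic 0) := by
      have : b = x - a := by rw [← hab]; abel
      rw [this]
      exact Submodule.sub_mem _ hx (hle ha)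
    have hb0 := Submodule.disjoint_def.1 (disjoint_egS (k := k) (h := h) isCompl_Ioi_Iic.disjoint)
      b hb' hb
    rw [← hab, hb0, add_zero]
    exact ha
  rw [← heq, hq', ← Submodule.map_comp]
  have : eu k z ∘ₗ eu k (-z) = LinearMap.id := eu_mul_neg hnz
  rw [this, Submodule.map_id]

theorem par (hs : Spl k h) (q : LieSubalgebra k L)
    (hq : IsCompl q.toSubmodule (egS k h (Set.Iio 0))) :
    ∃ z ∈ egS k h (Set.Iio 0), q.toSubmodule = (egS k h (Set.Ici 0)).map (eu k z) := by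
  have h1 : egS k (-h) (Set.Ioi 0) = egS k h (Set.Iio 0) := by rw [egS_neg, neg_preimage_Ioi]
  have h2 : egS k (-h) (Set.Iic 0) = egS k h (Set.Ici 0) := by
    rw [egS_neg]; congr 1; ext i; simp
  have := par_pos (h := -h) (Spl.neg hs) q (by rw [h1]; exact hq)
  rwa [h1, h2] at this

end Vale.Agent.P092.H542.Rp
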