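import Vale.Agent.P092.H542.Rp.Conj

/-!
P092, project RP, row P4 (helper542): the nilradical is the polar of the parabolic, big cell
decomposition of automorphisms.
-/

set_option linter.all false

open Finset Module

namespace Vale.Agent.P092.H542.Rp

open Vale.Agent.P092.H213.Rp (Nil eu egs Spl egS IsAut)

variable {k L : Type} [Field k] [CharZero k] [LieRing L] [LieAlgebra k L] [Module.Finite k L]
  {h : L}

/-- `g` is an automorphism of the Lie algebra, with inverse `g'`. -/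
structure Au (g g' : Module.End k L) : Prop where
  r : g * g' = 1
  l : g' * g = 1
  lie : ∀ x y : L, g ⁅x, y⁆ = ⁅g x, g y⁆

theorem Au.r_apply {g g' : Module.End k L} (hg : Au g g') (x : L) : g (g' x) = x := by
  have := congrArg (fun f : Module.End k L => f x) hg.r
  simpa using this

theorem Au.l_apply {g g' : Module.End k L} (hg : Au g g') (x : L) : g' (g x) = x := by
  have := congrArg (fun f : Module.End k L => f x) hg.l
  simpa using this

theorem Au.symm {g g' : Module.End k L} (hg : Au g g') : Au g' g := by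
  refine ⟨hg.l, hg.r, fun x y => ?_⟩
  conv_lhs => rw [← hg.r_apply x, ← hg.r_apply y, ← hg.lie, hg.l_apply]

theorem Au.mul {g g' f f' : Module.End k L} (hg : Au g g') (hf : Au f f') :
    Au (g * f) (f' * g') := by
  refine ⟨?_, ?_, fun x y => ?_⟩
  · rw [mul_assoc, ← mul_assoc f, hf.r, one_mul, hg.r]
  · rw [mul_assoc, ← mul_assoc g', hg.l, one_mul, hf.l]
  · simp [hg.lie, hf.lie]

theorem Au.one : Au (1 : Module.End k L) 1 := ⟨by simp, by simp, fun x y => by simp⟩

theorem Au.eu {x : L} (hx : Nil k x) : Au (eu k x) (eu k (-x)) :=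
  ⟨eu_mul_neg hx, eu_neg_mul hx, eu_lie hx⟩

theorem Au.nil {g g' : Module.End k L} (hg : Au g g') {x : L} (hx : Nil k x) : Nil k (g x) :=
  Nil.map hg.lie hg.r hx

theorem Au.conj {g g' : Module.End k L} (hg : Au g g') {x : L} (hx : Nil k x) :
    g * H213.Rp.eu k x * g' = H213.Rp.eu k (g x) :=
  eu_conj hg.lie hg.r hx

/-- the automorphism as an equivalence -/
def Au.toEquiv {g g' : Module.End k L} (hg : Au g g') : L ≃ₗ⁅k⁆ L :=
  { g with
    map_lie' := fun {x y} => hg.lie x y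
    invFun := g'
    left_inv := hg.l_apply
    right_inv := hg.r_apply }

theorem Au.killing {g g' : Module.End k L} (hg : Au g g') (x y : L) :
    killingForm k L (g x) (g y) = killingForm k L x y :=
  LieAlgebra.killingForm_of_equiv_apply hg.toEquiv x y

theorem Au.map_eq {g g' : Module.End k L} (hg : Au g g') (P : Submodule k L)
    (h1 : ∀ x ∈ P, g x ∈ P) (h2 : ∀ x ∈ P, g' x ∈ P) : P.map g = P := by
  apply le_antisymm
  · rintro _ ⟨x, hx, rfl⟩
    exact h1 x hx
  · intro x hx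
    exact ⟨g' x, h2 x hx, hg.r_apply x⟩

/-- the subalgebra `L_{≥0}` -/
def qge (k : Type) {L : Type} [Field k] [CharZero k] [LieRing L] [LieAlgebra k L] (h : L) : LieSubalgebra k L :=
  { egS k h (Set.Ici 0) with
    lie_mem' := fun {x y} hx hy => lie_mem_egS (U := Set.Ici 0)
      (fun i hi j hj => by simp only [Set.mem_Ici] at *; omega) hx hy }

theorem qge_toSubmodule : (qge k h).toSubmodule = egS k h (Set.Ici 0) := rfl

theorem egS_neg_Ioi : egS k (-h) (Set.Ioi 0) = egS k h (Set.Iio 0) := by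
  rw [egS_neg, neg_preimage_Ioi]

theorem egS_neg_Iio : egS k (-h) (Set.Iio 0) = egS k h (Set.Ioi 0) := by
  rw [egS_neg, neg_preimage_Iio]

theorem egS_neg_Ici : egS k (-h) (Set.Ici 0) = egS k h (Set.Iic 0) := by
  rw [egS_neg, neg_preimage_Ici]

theorem egS_neg_Iic : egS k (-h) (Set.Iic 0) = egS k h (Set.Ici 0) := by
  rw [egS_neg]; congr 1; ext i; simp

theorem killing_egs {i j : ℤ} (hij : i + j ≠ 0) {x y : L} (hx : x ∈ egs k h i)
    (hy : y ∈ egs k h j) : killingForm k L x y = 0 := by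
  have h1 : killingForm k L ⁅x, h⁆ y = killingForm k L x ⁅h, y⁆ :=
    LieModule.traceForm_apply_lie_apply k L L x h y
  rw [← lie_skew, mem_egs.1 hx, mem_egs.1 hy] at h1
  simp only [map_neg, map_smul, LinearMap.neg_apply, LinearMap.smul_apply, smul_eq_mul] at h1
  have h2 : ((i : k) + j) * killingForm k L x y = 0 := by linear_combination -h1
  rcases mul_eq_zero.1 h2 with h3 | h3
  · exact absurd (by exact_mod_cast h3) hij
  · exact h3

theorem killing_egS {S T : Set ℤ} (hST : ∀ i ∈ S, ∀ j ∈ T, i + j ≠ 0) {x y : L}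
    (hx : x ∈ egS k h S) (hy : y ∈ egS k h T) : killingForm k L x y = 0 := by
  have h1 : egS k h S ≤ LinearMap.ker ((killingForm k L).flip y) := by
    refine egS_le fun i hi z hz => ?_
    have h2 : egS k h T ≤ LinearMap.ker (killingForm k L z) := by
      refine egS_le fun j hj w hw => ?_
      exact killing_egs (hST i hi j hj) hz hw
    exact h2 hy
  exact h1 hx

theorem mem_Ioi_iff [LieAlgebra.IsKilling k L] (hs : Spl k h) {x : L} :
    x ∈ egS k h (Set.Ioi 0) ↔ ∀ y ∈ egS k h (Set.Ici 0), killingForm k L x y = 0 := by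
  constructor
  · intro hx y hy
    exact killing_egS (fun i hi j hj => by
      have h1 : 0 < i := hi
      have h2 : 0 ≤ j := hj
      omega) hx hy
  · intro H
    obtain ⟨a, ha, b, hb, hab⟩ := Submodule.mem_sup.1
      (show x ∈ egS k h (Set.Iic 0) ⊔ egS k h (Set.Ioi 0) by
        rw [(isCompl_egS hs isCompl_Ioi_Iic).sup_eq_top]; trivial)
    have h1 : killingForm k L a = 0 := by
      ext y
      obtain ⟨c, hc, d, hd, hcd⟩ := Submodule.mem_sup.1
        (show y ∈ egS k h (Set.Ici 0) ⊔ egS k h (Set.Iio 0) by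
          rw [(isCompl_egS hs isCompl_Ici_Iio).sup_eq_top]; trivial)
      rw [← hcd, map_add]
      have h2 : killingForm k L a d = 0 := killing_egS (fun i hi j hj => by
        have h1 : i ≤ 0 := hi
        have h2 : j < 0 := hj
        omega) ha hd
      have h3 : killingForm k L b c = 0 := killing_egS (fun i hi j hj => by
        have h1 : 0 < i := hi
        have h2 : 0 ≤ j := hj
        omega) hb hc
      have h4 := H c hc
      rw [← hab, map_add, LinearMap.add_apply, h3, add_zero] at h4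
      rw [h2, h4]
      simp
    have h2 : a ∈ LinearMap.ker (killingForm k L) := h1
    rw [LieAlgebra.IsKilling.ker_killingForm_eq_bot] at h2
    rw [← hab, (Submodule.mem_bot k).1 h2, zero_add]
    exact hb

theorem Au.map_Ioi [LieAlgebra.IsKilling k L] (hs : Spl k h) {g g' : Module.End k L}
    (hg : Au g g') (h2 : ∀ x ∈ egS k h (Set.Ici 0), g' x ∈ egS k h (Set.Ici 0)) {x : L}
    (hx : x ∈ egS k h (Set.Ioi 0)) : g x ∈ egS k h (Set.Ioi 0) := by
  rw [mem_Ioi_iff hs] at *
  intro y hy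
  rw [← hg.r_apply y, hg.killing]
  exact hx _ (h2 y hy)

theorem Au.map_Iio [LieAlgebra.IsKilling k L] (hs : Spl k h) {g g' : Module.End k L}
    (hg : Au g g') (h2 : ∀ x ∈ egS k h (Set.Iic 0), g' x ∈ egS k h (Set.Iic 0)) {x : L}
    (hx : x ∈ egS k h (Set.Iio 0)) : g x ∈ egS k h (Set.Iio 0) := by
  rw [← egS_neg_Ioi] at *
  rw [← egS_neg_Ici] at h2
  exact Au.map_Ioi (Spl.neg hs) hg h2 hx

theorem Au.isCompl {g g' : Module.End k L} (hg : Au g g') {P Q : Submodule k L}
    (hPQ : IsCompl P Q) : IsCompl (P.map g) (Q.map g) := by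
  refine ⟨?_, ?_⟩
  · rw [Submodule.disjoint_def]
    rintro _ ⟨x, hx, rfl⟩ ⟨y, hy, hxy⟩
    have h1 : x = y := by rw [← hg.l_apply x, ← hg.l_apply y, hxy]
    rw [Submodule.disjoint_def.1 hPQ.disjoint x hx (h1 ▸ hy), map_zero]
  · rw [codisjoint_iff, ← Submodule.map_sup, hPQ.sup_eq_top, eq_top_iff]
    intro x _
    exact ⟨g' x, trivial, hg.r_apply x⟩

/-- the image of a subalgebra -/
def Au.sub {g g' : Module.End k L} (hg : Au g g') (q : LieSubalgebra k L) : LieSubalgebra k L :=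
  { q.toSubmodule.map g with
    lie_mem' := by
      rintro _ _ ⟨x, hx, rfl⟩ ⟨y, hy, rfl⟩
      exact ⟨⁅x, y⁆, q.lie_mem hx hy, hg.lie x y⟩ }

theorem Au.sub_toSubmodule {g g' : Module.End k L} (hg : Au g g') (q : LieSubalgebra k L) :
    (hg.sub q).toSubmodule = q.toSubmodule.map g := rfl

theorem eu_mem_Iic (hs : Spl k h) {z : L} (hz : z ∈ egS k h (Set.Iio 0)) {x : L}
    (hx : x ∈ egS k h (Set.Iic 0)) : eu k z x ∈ egS k h (Set.Iic 0) := by
  rw [← egS_neg_Ioi] at hz
  rw [← egS_neg_Ici] at *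
  exact eu_mem_Ici (Spl.neg hs) hz hx

/-- An automorphism preserving `L_{≥0}` is a product of one preserving the grading `L_{>0}`, `L_0`,
`L_{<0}` and an element of the unipotent radical. -/
theorem levi [LieAlgebra.IsKilling k L] (hs : Spl k h) {g g' : Module.End k L} (hg : Au g g')
    (h1 : ∀ x ∈ egS k h (Set.Ici 0), g x ∈ egS k h (Set.Ici 0))
    (h2 : ∀ x ∈ egS k h (Set.Ici 0), g' x ∈ egS k h (Set.Ici 0)) :
    ∃ z ∈ egS k h (Set.Ioi 0), ((egS k h (Set.Iic 0)).map g) = (egS k h (Set.Iic 0)).map (eu k z) := by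
  have h3 : IsCompl ((egS k h (Set.Iic 0)).map g) ((egS k h (Set.Ioi 0)).map g) :=
    hg.isCompl (isCompl_egS hs isCompl_Ioi_Iic)
  rw [hg.map_eq (egS k h (Set.Ioi 0)) (fun x hx => hg.map_Ioi hs h2 hx)
    (fun x hx => hg.symm.map_Ioi hs h1 hx)] at h3
  have h4 := par_pos hs (hg.sub (qge k (-h))) (by
    rw [hg.sub_toSubmodule, qge_toSubmodule, egS_neg_Ici]; exact h3)
  rwa [hg.sub_toSubmodule, qge_toSubmodule, egS_neg_Ici] at h4

/-- **Big cell decomposition.** -/
theorem dec [LieAlgebra.IsKilling k L] (hs : Spl k h) {g g' : Module.End k L} (hg : Au g g')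
    (hc : IsCompl ((egS k h (Set.Ici 0)).map g) (egS k h (Set.Iio 0))) :
    ∃ y ∈ egS k h (Set.Iio 0), ∃ z ∈ egS k h (Set.Ioi 0), ∃ m m' : Module.End k L, Au m m' ∧
      (∀ x ∈ egS k h (Set.Ici 0), m x ∈ egS k h (Set.Ici 0)) ∧
      (∀ x ∈ egS k h (Set.Ici 0), m' x ∈ egS k h (Set.Ici 0)) ∧
      (∀ x ∈ egS k h (Set.Iic 0), m x ∈ egS k h (Set.Iic 0)) ∧
      (∀ x ∈ egS k h (Set.Iic 0), m' x ∈ egS k h (Set.Iic 0)) ∧
      g = eu k y * m * eu k z := by
  obtain ⟨y, hy, hyq⟩ := par hs (hg.sub (qge k h)) (by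
    rw [hg.sub_toSubmodule, qge_toSubmodule]; exact hc)
  rw [hg.sub_toSubmodule, qge_toSubmodule] at hyq
  have hny : Nil k y := nil_neg hs hy
  have hg1 : Au (eu k (-y) * g) (g' * eu k y) := by
    have := (Au.eu (Nil.neg hny)).mul hg
    rwa [neg_neg] at this
  have h1 : ∀ x ∈ egS k h (Set.Ici 0), (eu k (-y) * g) x ∈ egS k h (Set.Ici 0) := by
    intro x hx
    have h2 : g x ∈ (egS k h (Set.Ici 0)).map g := ⟨x, hx, rfl⟩
    rw [hyq] at h2
    obtain ⟨w, hw, hw2⟩ := h2
    rw [Module.End.mul_apply, ← hw2, eu_neg_apply hny]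
    exact hw
  have h1' : ∀ x ∈ egS k h (Set.Ici 0), (g' * eu k y) x ∈ egS k h (Set.Ici 0) := by
    intro x hx
    have h2 : eu k y x ∈ (egS k h (Set.Ici 0)).map (eu k y) := ⟨x, hx, rfl⟩
    rw [← hyq] at h2
    obtain ⟨w, hw, hw2⟩ := h2
    rw [Module.End.mul_apply, ← hw2, hg.l_apply]
    exact hw
  -- `z` with `g1⁻¹ L_{≤0} = eu z L_{≤0}`
  obtain ⟨z, hz, hzq⟩ := levi hs hg1.symm h1' h1
  have hnz : Nil k z := nil_pos hs hz
  refine ⟨y, hy, -z, Submodule.neg_mem _ hz, (eu k (-y) * g) * eu k z,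
    eu k (-z) * (g' * eu k y), hg1.mul (Au.eu hnz), ?_, ?_, ?_, ?_, ?_⟩
  · intro x hx
    exact h1 _ (eu_mem_Ici hs hz hx)
  · intro x hx
    exact eu_mem_Ici hs (Submodule.neg_mem _ hz) (h1' x hx)
  · intro x hx
    have h2 : eu k z x ∈ (egS k h (Set.Iic 0)).map (eu k z) := ⟨x, hx, rfl⟩
    rw [← hzq] at h2
    obtain ⟨w, hw, hw2⟩ := h2
    rw [Module.End.mul_apply, ← hw2, hg1.r_apply]
    exact hw
  · intro x hx
    have h2 : (g' * eu k y) x ∈ (egS k h (Set.Iic 0)).map (g' * eu k y) := ⟨x, hx, rfl⟩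
    rw [hzq] at h2
    obtain ⟨w, hw, hw2⟩ := h2
    rw [Module.End.mul_apply, ← hw2, eu_neg_apply hnz]
    exact hw
  · have e1 : eu k z * eu k (-z) = 1 := eu_mul_neg hnz
    have e2 : eu k y * eu k (-y) = 1 := eu_mul_neg hny
    calc g = (eu k y * eu k (-y)) * g * (eu k z * eu k (-z)) := by rw [e1, e2, one_mul, mul_one]
      _ = eu k y * (eu k (-y) * g * eu k z) * eu k (-z) := by simp only [mul_assoc]

end Vale.Agent.P092.H542.Rp
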