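import Mathlib.RingTheory.Nilpotent.Exp
import Mathlib.LinearAlgebra.PiTensorProduct.Basic
import Mathlib.LinearAlgebra.Vandermonde
import Mathlib.LinearAlgebra.Determinant
import Vale.Agent.P092.H213.Rp.Defs

/-!
P092, project RP, row P4 (helper542): the exponential series of nilpotent elements over a field of
characteristic zero; the derivations and automorphisms of tensor powers.
-/

set_option linter.all false

open Finset

namespace Vale.Agent.P092.H542.Rp

section exp

variable {k : Type*} [Field k] {A : Type*} [Ring A] [Algebra k A]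

/-- The exponential series of a nilpotent element (a finite sum, coefficients in `k`). -/
noncomputable def ex (k : Type*) [Field k] {A : Type*} [Ring A] [Algebra k A] (a : A) : A :=
  ∑ i ∈ range (nilpotencyClass a), ((i.factorial : k)⁻¹) • a ^ i

theorem ex_eq_exp [CharZero k] [Module ℚ A] (a : A) : ex k a = IsNilpotent.exp a := by
  unfold ex IsNilpotent.exp
  refine sum_congr rfl fun i _ => ?_
  have := ratCast_smul_eq k ℚ ((i.factorial : ℚ)⁻¹) (a ^ i)
  simpa using this

theorem ex_eq_sum [CharZero k] {a : A} {n : ℕ} (h : a ^ n = 0) :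
    ex k a = ∑ i ∈ range n, ((i.factorial : k)⁻¹) • a ^ i := by
  letI : Module ℚ A := Module.compHom A (algebraMap ℚ k)
  rw [ex_eq_exp, IsNilpotent.exp_eq_sum h]
  refine sum_congr rfl fun i _ => ?_
  have := ratCast_smul_eq k ℚ ((i.factorial : ℚ)⁻¹) (a ^ i)
  simpa using this.symm

theorem ex_add [CharZero k] {a b : A} (h : Commute a b) (ha : IsNilpotent a) (hb : IsNilpotent b) :
    ex k (a + b) = ex k a * ex k b := by
  letI : Module ℚ A := Module.compHom A (algebraMap ℚ k)
  rw [ex_eq_exp, ex_eq_exp, ex_eq_exp, IsNilpotent.exp_add_of_commute h ha hb]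

@[simp] theorem ex_zero [CharZero k] : ex k (0 : A) = 1 := by
  rw [ex_eq_sum (n := 1) (by simp)]
  simp

theorem ex_mul_neg [CharZero k] {a : A} (ha : IsNilpotent a) : ex k a * ex k (-a) = 1 := by
  rw [← ex_add (Commute.neg_right (Commute.refl a)) ha ha.neg]
  simp

theorem ex_neg_mul [CharZero k] {a : A} (ha : IsNilpotent a) : ex k (-a) * ex k a = 1 := by
  rw [← ex_add (Commute.neg_left (Commute.refl a)) ha.neg ha]
  simp

theorem map_ex [CharZero k] {B : Type*} [Ring B] [Algebra k B] (f : A →ₐ[k] B) {a : A}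
    (ha : IsNilpotent a) : f (ex k a) = ex k (f a) := by
  obtain ⟨n, hn⟩ := ha
  rw [ex_eq_sum hn, ex_eq_sum (n := n) (by rw [← map_pow, hn, map_zero]), map_sum]
  simp

theorem ex_conj [CharZero k] {a u v : A} (ha : IsNilpotent a) (huv : v * u = 1) :
    ex k (u * a * v) = u * ex k a * v + (1 - u * v) := by
  obtain ⟨n, hn⟩ := ha
  have hp : ∀ i : ℕ, (u * a * v) ^ (i + 1) = u * a ^ (i + 1) * v := by
    intro i
    induction i with
    | zero => simp
    | succ i ih =>
      rw [pow_succ, ih, pow_succ a (i + 1)]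
      calc u * a ^ (i + 1) * v * (u * a * v) = u * a ^ (i + 1) * (v * u) * a * v := by
            simp only [mul_assoc]
        _ = _ := by rw [huv]; simp only [mul_assoc, one_mul]
  have hn' : (u * a * v) ^ (n + 1) = 0 := by rw [hp, pow_succ, hn]; simp
  rw [ex_eq_sum hn', ex_eq_sum (n := n + 1) (by rw [pow_succ, hn, zero_mul]),
    sum_range_succ', sum_range_succ']
  simp only [hp, mul_add, add_mul, mul_sum, sum_mul, mul_smul_comm, smul_mul_assoc]
  simp

/-- The unit given by the exponential of a nilpotent element. -/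
noncomputable def exu [CharZero k] (a : A) (ha : IsNilpotent a) : Aˣ :=
  ⟨ex k a, ex k (-a), ex_mul_neg ha, ex_neg_mul ha⟩

/-- A polynomial curve with values in a vector space, contained in a subspace: the coefficients are
in the subspace. -/
theorem coeff_mem [CharZero k] {V : Type*} [AddCommGroup V] [Module k V] (S : Submodule k V) (n : ℕ)
    (c : ℕ → V) (h : ∀ t : k, ∑ i ∈ range n, t ^ i • c i ∈ S) : ∀ i < n, c i ∈ S := by
  intro i hi
  classical
  let t : Fin n → k := fun j => (j : ℕ)
  have ht : Function.Injective t := fun a b hab => Fin.ext (by simpa [t] using hab)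
  have hdet : IsUnit (Matrix.vandermonde t).det :=
    isUnit_iff_ne_zero.2 (Matrix.det_vandermonde_ne_zero_iff.2 ht)
  have hinv := Matrix.nonsing_inv_mul _ hdet
  have key : c i = ∑ j : Fin n, (Matrix.vandermonde t)⁻¹ ⟨i, hi⟩ j •
      ∑ l ∈ range n, t j ^ l • c l := by
    simp_rw [Finset.sum_range, smul_sum, smul_smul]
    rw [Finset.sum_comm]
    simp_rw [← Finset.sum_smul]
    have : ∀ l : Fin n, ∑ j : Fin n, (Matrix.vandermonde t)⁻¹ ⟨i, hi⟩ j * t j ^ (l : ℕ) =
        if l = ⟨i, hi⟩ then 1 else 0 := by
      intro l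
      have h1 := congrFun (congrFun hinv ⟨i, hi⟩) l
      rw [Matrix.mul_apply] at h1
      simp only [Matrix.vandermonde_apply] at h1
      rw [h1, Matrix.one_apply]
      simp [eq_comm]
    simp_rw [this]
    simp
  rw [key]
  exact S.sum_mem fun j _ => S.smul_mem _ (h _)

end exp

end Vale.Agent.P092.H542.Rp
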