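import Vale.Agent.P092.H542.Rp.Exp

/-!
P092, project RP, row P4 (helper542): the action of endomorphisms on tensor powers, as derivations
(`dv`) and as automorphisms (`tn`), and the compatibility of the exponentials.
-/

set_option linter.all false

open Finset Module
open scoped TensorProduct

namespace Vale.Agent.P092.H542.Rp

section ten

variable {k : Type*} [Field k] {ι : Type*} [Fintype ι] [DecidableEq ι] {L : Type*} [AddCommGroup L]
  [Module k L]

/-- the action on all factors -/
noncomputable def tn (ι : Type*) [Fintype ι] (A : Module.End k L) :
    Module.End k (PiTensorProduct k fun _ : ι => L) :=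
  PiTensorProduct.map fun _ => A

omit [DecidableEq ι] in
theorem tn_mul (A B : Module.End k L) : tn ι (A * B) = tn ι A * tn ι B :=
  PiTensorProduct.map_mul (fun _ => A) fun _ => B

omit [DecidableEq ι] in
theorem tn_one : tn ι (1 : Module.End k L) = 1 := PiTensorProduct.map_one

omit [DecidableEq ι] in
theorem tn_tprod (A : Module.End k L) (x : ι → L) :
    tn ι A (PiTensorProduct.tprod k x) = PiTensorProduct.tprod k fun i => A (x i) :=
  PiTensorProduct.map_tprod _ _

/-- the action on one factor, an algebra homomorphism. -/
noncomputable def on (i : ι) : Module.End k L →ₐ[k] Module.End k (PiTensorProduct k fun _ : ι => L) where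
  toFun A := PiTensorProduct.map (Function.update (fun _ => (1 : Module.End k L)) i A)
  map_one' := by
    rw [Function.update_eq_self_iff.2 rfl]
    exact PiTensorProduct.map_one
  map_mul' A B := by
    rw [← PiTensorProduct.map_mul]
    congr 1
    ext j
    by_cases hj : j = i
    · subst hj; simp
    · simp [hj]
  map_zero' := by
    have := PiTensorProduct.map_update_smul (fun _ : ι => (1 : Module.End k L)) i (0 : k)
      (0 : Module.End k L)
    simpa using this
  map_add' A B := PiTensorProduct.map_update_add (fun _ : ι => (1 : Module.End k L)) i A B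
  commutes' c := by
    have := PiTensorProduct.map_update_smul (fun _ : ι => (1 : Module.End k L)) i c
      (1 : Module.End k L)
    rw [Algebra.algebraMap_eq_smul_one, Algebra.algebraMap_eq_smul_one]
    change PiTensorProduct.map (Function.update (fun _ => (1 : Module.End k L)) i (c • 1)) = _
    rw [this, Function.update_eq_self_iff.2 rfl]
    congr 1
    exact PiTensorProduct.map_one

theorem on_comm {i j : ι} (hij : i ≠ j) (A B : Module.End k L) : Commute (on i A) (on j B) := by
  change PiTensorProduct.map _ * PiTensorProduct.map _ = PiTensorProduct.map _ * PiTensorProduct.map _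
  rw [← PiTensorProduct.map_mul, ← PiTensorProduct.map_mul]
  congr 1
  ext l
  by_cases h1 : l = i
  · subst h1; simp [hij]
  · by_cases h2 : l = j
    · subst h2; simp [h1]
    · simp [h1, h2]

theorem on_comm_self (i j : ι) (A : Module.End k L) : Commute (on i A) (on j A) := by
  by_cases hij : i = j
  · subst hij; exact Commute.refl _
  · exact on_comm hij A A

/-- the action as derivations -/
noncomputable def dv (ι : Type*) [Fintype ι] [DecidableEq ι] :
    Module.End k L →ₗ[k] Module.End k (PiTensorProduct k fun _ : ι => L) :=
  ∑ i : ι, (on i).toLinearMap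

theorem dv_apply (A : Module.End k L) : dv ι A = ∑ i : ι, on i A := by
  simp [dv]

theorem dv_lie (A B : Module.End k L) : dv ι ⁅A, B⁆ = ⁅dv ι A, dv ι B⁆ := by
  rw [dv_apply, dv_apply, dv_apply, Ring.lie_def, Ring.lie_def, sum_mul_sum, sum_mul_sum]
  rw [Finset.sum_comm (f := fun i j => on i B * on j A), ← sum_sub_distrib]
  refine sum_congr rfl fun i _ => ?_
  rw [← sum_sub_distrib, Finset.sum_eq_single i]
  · rw [map_sub, map_mul, map_mul]
  · intro j _ hj
    rw [sub_eq_zero]
    exact on_comm hj.symm A B
  · intro h; exact absurd (mem_univ i) h

theorem dv_comm (A B : Module.End k L) : dv ι (A * B - B * A) = dv ι A * dv ι B - dv ι B * dv ι A := by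
  have := dv_lie (ι := ι) A B
  rwa [Ring.lie_def, Ring.lie_def] at this

theorem isNilpotent_dv (S : Finset ι) {A : Module.End k L} (hA : IsNilpotent A) :
    IsNilpotent (∑ i ∈ S, on i A) := by
  classical
  induction S using Finset.induction_on with
  | empty => simp
  | insert i S hi ih =>
    rw [sum_insert hi]
    refine Commute.isNilpotent_add ?_ (hA.map (on i)) ih
    exact Commute.sum_right _ _ _ fun j _ => on_comm_self i j A

theorem ex_dv_aux [CharZero k] (S : Finset ι) {A : Module.End k L} (hA : IsNilpotent A) :
    ex k (∑ i ∈ S, on i A) =
      PiTensorProduct.map (fun i : ι => if i ∈ S then ex k A else (1 : Module.End k L)) := by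
  classical
  induction S using Finset.induction_on with
  | empty =>
    simp only [sum_empty, ex_zero, notMem_empty, if_false]
    exact PiTensorProduct.map_one.symm
  | insert i S hi ih =>
    rw [sum_insert hi, ex_add (Commute.sum_right _ _ _ fun j _ => on_comm_self i j A)
      (hA.map (on i)) (isNilpotent_dv S hA), ih, ← map_ex (on i) hA]
    change PiTensorProduct.map _ * PiTensorProduct.map _ = _
    rw [← PiTensorProduct.map_mul]
    congr 1
    ext j
    by_cases hj : j = i
    · subst hj; simp [hi]
    · simp [hj]

/-- **The exponential of the derivation is the automorphism given by the exponential.** -/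
theorem ex_dv [CharZero k] {A : Module.End k L} (hA : IsNilpotent A) :
    ex k (dv ι A) = tn ι (ex k A) := by
  rw [dv_apply, ex_dv_aux univ hA, tn]
  simp

theorem isNilpotent_dv' {A : Module.End k L} (hA : IsNilpotent A) : IsNilpotent (dv ι A) := by
  rw [dv_apply]
  exact isNilpotent_dv _ hA

end ten

end Vale.Agent.P092.H542.Rp
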