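import Vale.Agent.P092.H542.Rp.Dec
import Vale.Agent.P092.H542.Rp.Ten

/-!
P092, project RP, row P4 (helper542): the group generated by the two opposite unipotent radicals is
everything.
-/

set_option linter.all false

open Finset Module

namespace Vale.Agent.P092.H542.Rp

open Vale.Agent.P092.H213.Rp (Nil eu egs Spl egS IsAut)

variable {k L : Type} [Field k] [CharZero k] [LieRing L] [LieAlgebra k L] [Module.Finite k L]
  {h : L}

theorem eq_zero_of_lie [LieAlgebra.IsKilling k L] {x : L} (hx : ∀ y : L, ⁅x, y⁆ = 0) : x = 0 := by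
  have h0 : LieAlgebra.ad k L x = 0 := by ext y; simp [hx]
  have h1 : killingForm k L x = 0 := by
    ext y
    rw [killingForm_apply_apply, h0]
    simp
  have h2 : x ∈ LinearMap.ker (killingForm k L) := h1
  rw [LieAlgebra.IsKilling.ker_killingForm_eq_bot] at h2
  exact (Submodule.mem_bot k).1 h2

theorem split3 (hs : Spl k h) (x : L) :
    ∃ a ∈ egS k h (Set.Iio 0), ∃ b ∈ egs k h 0, ∃ c ∈ egS k h (Set.Ioi 0), x = a + b + c := by
  obtain ⟨a, ha, b, hb, hab⟩ := Submodule.mem_sup.1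
    (show x ∈ egS k h (Set.Ici 0) ⊔ egS k h (Set.Iio 0) by
      rw [(isCompl_egS hs isCompl_Ici_Iio).sup_eq_top]; trivial)
  obtain ⟨y, hy, z, hz, hyz⟩ := egS_split ha
  refine ⟨b, hb, y, hy, z, ?_, by rw [← hab, hyz]; abel⟩
  rw [Ioi_eq_Ici]; simpa using hz

/-- nonzero split elements have nonzero `L_{>0}` or `L_{<0}` -/
theorem exists_ne_zero [LieAlgebra.IsKilling k L] (hs : Spl k h) (hh : h ≠ 0) :
    ∃ x, x ≠ 0 ∧ (x ∈ egS k h (Set.Ioi 0) ∨ x ∈ egS k h (Set.Iio 0)) := by
  by_contra H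
  push Not at H
  apply hh
  apply eq_zero_of_lie (k := k)
  intro y
  obtain ⟨a, ha, b, hb, c, hc, rfl⟩ := split3 (k := k) hs y
  have ha0 : a = 0 := by by_contra h0; exact (H a h0).2 ha
  have hc0 : c = 0 := by by_contra h0; exact (H c h0).1 hc
  rw [ha0, hc0, zero_add, add_zero, mem_egs.1 hb]
  simp

/-- a subalgebra containing `L_{>0}` and `L_{<0}` is everything -/
theorem sub_top (hsim : LieAlgebra.IsSimple k L) (hs : Spl k h) (hh : h ≠ 0)
    (s : LieSubalgebra k L) (h1 : ∀ x ∈ egS k h (Set.Ioi 0), x ∈ s)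
    (h2 : ∀ x ∈ egS k h (Set.Iio 0), x ∈ s) : ∀ x : L, x ∈ s := by
  set M := LieSubalgebra.lieSpan k L
    {x : L | x ∈ egS k h (Set.Ioi 0) ∨ x ∈ egS k h (Set.Iio 0)} with hM
  have hMs : M ≤ s := by
    rw [hM, LieSubalgebra.lieSpan_le]
    rintro x (hx | hx)
    · exact h1 x hx
    · exact h2 x hx
  have hpos : ∀ x ∈ egS k h (Set.Ioi 0), x ∈ M := fun x hx => LieSubalgebra.subset_lieSpan (Or.inl hx)
  have hneg : ∀ x ∈ egS k h (Set.Iio 0), x ∈ M := fun x hx => LieSubalgebra.subset_lieSpan (Or.inr hx)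
  have hz : ∀ x ∈ egs k h 0, ∀ y ∈ M, ⁅x, y⁆ ∈ M := by
    intro x hx
    have hx' : x ∈ egS k h {0} := egs_le (Set.mem_singleton _) hx
    let N : LieSubalgebra k L :=
      { carrier := {y | y ∈ M ∧ ⁅x, y⁆ ∈ M}
        add_mem' := fun {a b} ha hb => ⟨M.add_mem ha.1 hb.1, by
          rw [lie_add]; exact M.add_mem ha.2 hb.2⟩
        zero_mem' := ⟨M.zero_mem, by rw [lie_zero]; exact M.zero_mem⟩
        smul_mem' := fun c {a} ha => ⟨M.smul_mem c ha.1, by
          rw [lie_smul]; exact M.smul_mem c ha.2⟩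
        lie_mem' := fun {a b} ha hb => ⟨M.lie_mem ha.1 hb.1, by
          rw [leibniz_lie]; exact M.add_mem (M.lie_mem ha.2 hb.1) (M.lie_mem ha.1 hb.2)⟩ }
    have hMN : M ≤ N := by
      rw [hM, LieSubalgebra.lieSpan_le]
      rintro y (hy | hy)
      · refine ⟨hpos y hy, hpos _ (lie_mem_egS ?_ hx' hy)⟩
        intro i hi j hj
        rw [Set.mem_singleton_iff] at hi
        rw [hi, zero_add]; exact hj
      · refine ⟨hneg y hy, hneg _ (lie_mem_egS ?_ hx' hy)⟩
        intro i hi j hj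
        rw [Set.mem_singleton_iff] at hi
        rw [hi, zero_add]; exact hj
    intro y hy
    exact (hMN hy).2
  let I : LieIdeal k L :=
    { M.toSubmodule with
      lie_mem := by
        intro x y hy
        obtain ⟨a, ha, b, hb, c, hc, rfl⟩ := split3 (k := k) hs x
        rw [add_lie, add_lie]
        exact M.add_mem (M.add_mem (M.lie_mem (hneg a ha) hy) (hz b hb y hy))
          (M.lie_mem (hpos c hc) hy) }
  have hI : ∀ x, x ∈ I ↔ x ∈ M := fun x => Iff.rfl
  rcases hsim.eq_bot_or_eq_top I with hb | ht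
  · obtain ⟨x, hx0, hx⟩ := exists_ne_zero hs hh
    have hxM : x ∈ M := by
      rcases hx with hx | hx
      · exact hpos x hx
      · exact hneg x hx
    rw [← hI, hb] at hxM
    exact absurd ((LieSubmodule.mem_bot x).1 hxM) hx0
  · intro x
    apply hMs
    rw [← hI, ht]
    exact LieSubmodule.mem_top x

section det

variable {P Q : Submodule k L} (hPQ : IsCompl P Q)

/-- the basis of `P` -/
noncomputable abbrev bP (P : Submodule k L) : Basis (Fin (finrank k P)) k P := finBasis k P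

/-- the vector `e_1 ⊗ ... ⊗ e_d` -/
noncomputable def vP (P : Submodule k L) : PiTensorProduct k fun _ : Fin (finrank k P) => L :=
  PiTensorProduct.tprod k fun i => ((bP P i : P) : L)

/-- the functional `x ↦ det (π ∘ x)` -/
noncomputable def phi (hPQ : IsCompl P Q) :
    (PiTensorProduct k fun _ : Fin (finrank k P) => L) →ₗ[k] k :=
  PiTensorProduct.lift ((bP P).det.toMultilinearMap.compLinearMap
    fun _ => P.projectionOnto Q hPQ)

theorem phi_tn (A : Module.End k L) :
    phi hPQ (tn _ A (vP P)) = LinearMap.det ((P.projectionOnto Q hPQ) ∘ₗ A ∘ₗ P.subtype) := by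
  rw [vP, tn_tprod, phi, PiTensorProduct.lift.tprod]
  have h1 := (bP P).det_comp ((P.projectionOnto Q hPQ) ∘ₗ A ∘ₗ P.subtype) (bP P)
  rw [(bP P).det_self, mul_one] at h1
  rw [← h1]
  rfl

theorem phi_one : phi hPQ (vP P) = 1 := by
  have h1 := phi_tn hPQ 1
  rw [tn_one, Module.End.one_apply] at h1
  rw [h1]
  have : (P.projectionOnto Q hPQ) ∘ₗ (1 : Module.End k L) ∘ₗ P.subtype = LinearMap.id := by
    ext x
    simp
  rw [this, LinearMap.det_id]

theorem isCompl_of_phi {A : Module.End k L} (hA : phi hPQ (tn _ A (vP P)) ≠ 0) :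
    IsCompl (P.map A) Q := by
  rw [phi_tn] at hA
  set f := (P.projectionOnto Q hPQ) ∘ₗ A ∘ₗ P.subtype with hf
  have hu : IsUnit f := (LinearMap.isUnit_iff_isUnit_det f).2 (isUnit_iff_ne_zero.2 hA)
  have hinj : Function.Injective f := ((Module.End.isUnit_iff f).1 hu).1
  have hsur : Function.Surjective f := ((Module.End.isUnit_iff f).1 hu).2
  refine ⟨?_, ?_⟩
  · rw [Submodule.disjoint_def]
    rintro _ ⟨y, hy, rfl⟩ hq
    have h1 : f ⟨y, hy⟩ = 0 := by
      rw [hf]
      simpa using hq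
    have h2 : (⟨y, hy⟩ : P) = 0 := hinj (by rw [h1, map_zero])
    have h3 : y = 0 := congrArg Subtype.val h2
    rw [h3, map_zero]
  · rw [codisjoint_iff, eq_top_iff]
    intro x _
    obtain ⟨y, hy⟩ := hsur (P.projectionOnto Q hPQ x)
    have h1 : x - A y ∈ Q := by
      rw [← Submodule.projectionOnto_apply_eq_zero_iff hPQ, map_sub, ← hy]
      simp [hf]
    have h2 : x = A y + (x - A y) := by abel
    rw [h2]
    exact Submodule.add_mem_sup ⟨y, y.2, rfl⟩ h1

end det

end Vale.Agent.P092.H542.Rp
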