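import Vale.Agent.P092.H542.Rp.Exp
import Mathlib.LinearAlgebra.Eigenspace.Minpoly
import Mathlib.LinearAlgebra.Eigenspace.Triangularizable
import Mathlib.LinearAlgebra.Eigenspace.Zero

/-!
P092, project RP, row P4 (helper542): the grading of a Lie algebra given by a split element, and
the exponentials of ad-nilpotent elements.
-/

set_option linter.all false

open Finset Module

namespace Vale.Agent.P092.H542.Rp

open Vale.Agent.P092.H213.Rp (Nil eu egs Spl egS IsAut)

section eu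

variable {k L : Type} [Field k] [CharZero k]

theorem ex213 [AddCommGroup L] [Module k L] [Module.Finite k L] {X : Module.End k L}
    (hX : IsNilpotent X) : H213.Rp.ex X = ex k X := by
  rw [H213.Rp.ex, ex_eq_sum (n := finrank k L + 1)]
  have h1 := _root_.IsNilpotent.charpoly_eq_X_pow_finrank hX
  have h2 := LinearMap.aeval_self_charpoly X
  rw [h1] at h2
  simp only [map_pow, Polynomial.aeval_X] at h2
  rw [pow_succ, h2, zero_mul]

variable [LieRing L] [LieAlgebra k L] [Module.Finite k L]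

theorem eu_eq {x : L} (hx : Nil k x) : eu k x = ex k (LieAlgebra.ad k L x) := ex213 hx

theorem Nil.smul {x : L} (hx : Nil k x) (t : k) : Nil k (t • x) := by
  unfold H213.Rp.Nil at *
  rw [map_smul]
  obtain ⟨n, hn⟩ := hx
  exact ⟨n, by rw [smul_pow, hn, smul_zero]⟩

theorem Nil.neg {x : L} (hx : Nil k x) : Nil k (-x) := by
  unfold H213.Rp.Nil at *
  rw [map_neg]
  exact IsNilpotent.neg hx

theorem Nil.zero : Nil k (0 : L) := by
  unfold H213.Rp.Nil
  rw [map_zero]
  exact ⟨1, by simp⟩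

theorem eu_zero : eu k (0 : L) = 1 := by
  rw [eu_eq Nil.zero, map_zero, ex_zero]

theorem eu_mul_neg {x : L} (hx : Nil k x) : eu k x * eu k (-x) = 1 := by
  rw [eu_eq hx, eu_eq (Nil.neg hx), map_neg, ex_mul_neg hx]

theorem eu_neg_mul {x : L} (hx : Nil k x) : eu k (-x) * eu k x = 1 := by
  rw [eu_eq hx, eu_eq (Nil.neg hx), map_neg, ex_neg_mul hx]

theorem eu_neg_apply {x : L} (hx : Nil k x) (y : L) : eu k (-x) (eu k x y) = y := by
  have := congrArg (fun f : Module.End k L => f y) (eu_neg_mul hx)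
  simpa using this

theorem eu_apply_neg {x : L} (hx : Nil k x) (y : L) : eu k x (eu k (-x) y) = y := by
  have := congrArg (fun f : Module.End k L => f y) (eu_mul_neg hx)
  simpa using this

theorem eu_lie {x : L} (hx : Nil k x) (y z : L) : eu k x ⁅y, z⁆ = ⁅eu k x y, eu k x z⁆ := by
  letI i1 : Module ℚ L := Module.compHom L (algebraMap ℚ k)
  have hls : ∀ (t : ℚ) (x y : L), ⁅x, t • y⁆ = t • ⁅x, y⁆ := by
    intro t x y
    change ⁅x, (algebraMap ℚ k t) • y⁆ = (algebraMap ℚ k t) • ⁅x, y⁆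
    exact lie_smul _ _ _
  letI i2 : LieAlgebra ℚ L := { i1 with lie_smul := hls }
  have h0 : (LieDerivation.ad k L x).toLinearMap = LieAlgebra.ad k L x := by
    ext y
    simp
  have h1 : IsNilpotent (LieDerivation.ad k L x).toLinearMap := by
    rw [h0]
    exact hx
  have h2 := (LieDerivation.exp (LieDerivation.ad k L x) h1).map_lie y z
  simp only [LieDerivation.exp_map_apply] at h2
  rw [eu_eq hx, ex_eq_exp, ← h0]
  exact h2

theorem ad_map {g : Module.End k L} (hg : ∀ x y : L, g ⁅x, y⁆ = ⁅g x, g y⁆) (x : L) :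
    g * LieAlgebra.ad k L x = LieAlgebra.ad k L (g x) * g := by
  ext y
  simp [hg]

theorem Nil.map {g g' : Module.End k L} (hg : ∀ x y : L, g ⁅x, y⁆ = ⁅g x, g y⁆) (h1 : g * g' = 1)
    {x : L} (hx : Nil k x) : Nil k (g x) := by
  unfold H213.Rp.Nil at *
  obtain ⟨n, hn⟩ := hx
  refine ⟨n, ?_⟩
  have h2 : ∀ m : ℕ, g * (LieAlgebra.ad k L x) ^ m = (LieAlgebra.ad k L (g x)) ^ m * g := by
    intro m
    induction m with
    | zero => simp
    | succ m ih => rw [pow_succ, ← mul_assoc, ih, mul_assoc, ad_map hg, ← mul_assoc, ← pow_succ]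
  calc (LieAlgebra.ad k L (g x)) ^ n = (LieAlgebra.ad k L (g x)) ^ n * (g * g') := by
        rw [h1, mul_one]
    _ = 0 := by rw [← mul_assoc, ← h2, hn]; simp

theorem eu_map {g g' : Module.End k L} (hg : ∀ x y : L, g ⁅x, y⁆ = ⁅g x, g y⁆) (h1 : g * g' = 1)
    {x : L} (hx : Nil k x) : g * eu k x = eu k (g x) * g := by
  rw [eu_eq hx, eu_eq (Nil.map hg h1 hx)]
  obtain ⟨n, hn⟩ := hx
  obtain ⟨m, hm⟩ := Nil.map hg h1 ⟨n, hn⟩
  have h2 : ∀ m : ℕ, g * (LieAlgebra.ad k L x) ^ m = (LieAlgebra.ad k L (g x)) ^ m * g := by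
    intro m
    induction m with
    | zero => simp
    | succ m ih => rw [pow_succ, ← mul_assoc, ih, mul_assoc, ad_map hg, ← mul_assoc, ← pow_succ]
  rw [ex_eq_sum (n := n + m) (by rw [pow_add, hn, zero_mul]),
    ex_eq_sum (n := n + m) (by rw [pow_add, hm, mul_zero]), mul_sum, sum_mul]
  refine sum_congr rfl fun i _ => ?_
  rw [mul_smul_comm, smul_mul_assoc, h2]

theorem eu_conj {g g' : Module.End k L} (hg : ∀ x y : L, g ⁅x, y⁆ = ⁅g x, g y⁆) (h1 : g * g' = 1)
    {x : L} (hx : Nil k x) : g * eu k x * g' = eu k (g x) := by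
  rw [eu_map hg h1 hx, mul_assoc, h1, mul_one]

end eu

section grading

variable {k L : Type} [Field k] [CharZero k] [LieRing L] [LieAlgebra k L] {h : L}

theorem mem_egs {i : ℤ} {x : L} : x ∈ egs k h i ↔ ⁅h, x⁆ = (i : k) • x := by
  simp [egs, Module.End.mem_eigenspace_iff]

theorem lie_mem_egs {i j : ℤ} {x y : L} (hx : x ∈ egs k h i) (hy : y ∈ egs k h j) :
    ⁅x, y⁆ ∈ egs k h (i + j) := by
  rw [mem_egs] at *
  rw [leibniz_lie, hx, hy]
  simp [add_smul]

theorem egs_neg (i : ℤ) : egs k (-h) i = egs k h (-i) := by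
  ext x
  rw [mem_egs, mem_egs]
  simp only [neg_lie, Int.cast_neg, neg_smul]
  constructor
  · intro h1; rw [← h1, neg_neg]
  · intro h1; rw [h1, neg_neg]

theorem egs_le {S : Set ℤ} {i : ℤ} (hi : i ∈ S) : egs k h i ≤ egS k h S :=
  le_iSup₂_of_le i hi le_rfl

theorem egS_le {S : Set ℤ} {P : Submodule k L} (hS : ∀ i ∈ S, egs k h i ≤ P) : egS k h S ≤ P :=
  iSup₂_le hS

theorem egS_mono {S T : Set ℤ} (hST : S ⊆ T) : egS k h S ≤ egS k h T :=
  egS_le fun _ hi => egs_le (hST hi)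

theorem egS_neg (S : Set ℤ) : egS k (-h) S = egS k h (Neg.neg ⁻¹' S) := by
  apply le_antisymm
  · refine egS_le fun i hi => ?_
    rw [egs_neg]
    exact egs_le (by simpa using hi)
  · refine egS_le fun i hi => ?_
    have := egs_le (k := k) (h := -h) (S := S) (i := -i) hi
    rwa [egs_neg, neg_neg] at this

theorem Spl.neg (hs : Spl k h) : Spl k (-h) := by
  unfold H213.Rp.Spl at *
  rw [eq_top_iff, ← hs]
  refine iSup_le fun i => ?_
  have := le_iSup (fun i : ℤ => egs k (-h) i) (-i)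
  rwa [egs_neg, neg_neg] at this

theorem egS_univ (hs : Spl k h) : egS k h Set.univ = ⊤ := by
  rw [eq_top_iff, ← hs]
  exact iSup_le fun i => egs_le (Set.mem_univ i)

theorem lie_mem_egS {S T U : Set ℤ} (hU : ∀ i ∈ S, ∀ j ∈ T, i + j ∈ U) {x y : L}
    (hx : x ∈ egS k h S) (hy : y ∈ egS k h T) : ⁅x, y⁆ ∈ egS k h U := by
  have h1 : ∀ i ∈ S, ∀ x ∈ egs k h i, ⁅x, y⁆ ∈ egS k h U := by
    intro i hi x hx
    have h2 : egS k h T ≤ (egS k h U).comap (LieAlgebra.ad k L x) := egS_le fun j hj z hz => by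
      exact egs_le (hU i hi j hj) (lie_mem_egs hx hz)
    exact h2 hy
  have h3 : egS k h S ≤ (egS k h U).comap (-(LieAlgebra.ad k L y)) := egS_le fun i hi z hz => by
    have := h1 i hi z hz
    rw [Submodule.mem_comap, LinearMap.neg_apply, LieAlgebra.ad_apply, lie_skew]
    exact this
  have := h3 hx
  rw [Submodule.mem_comap, LinearMap.neg_apply, LieAlgebra.ad_apply, lie_skew] at this
  exact this

theorem exists_bound [Module.Finite k L] (h : L) :
    ∃ M : ℕ, ∀ i : ℤ, (M : ℤ) < |i| → egs k h i = ⊥ := by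
  have h1 : Set.Finite {i : ℤ | egs k h i ≠ ⊥} := by
    have h2 := (LieAlgebra.ad k L h).finite_hasEigenvalue
    refine Set.Finite.of_finite_image (f := fun i : ℤ => (i : k)) (h2.subset ?_) ?_
    · rintro _ ⟨i, hi, rfl⟩
      exact hi
    · intro i _ j _ hij
      exact Int.cast_injective hij
  obtain ⟨M, hM⟩ := (h1.image (fun i => i.natAbs)).bddAbove
  refine ⟨M, fun i hi => ?_⟩
  by_contra hne
  have := hM ⟨i, hne, rfl⟩
  simp only at this
  rw [Int.abs_eq_natAbs] at hi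
  omega

theorem egS_Ici_bot {M : ℕ} (hM : ∀ i : ℤ, (M : ℤ) < |i| → egs k h i = ⊥) {m : ℤ} (hm : (M : ℤ) < m) :
    egS k h (Set.Ici m) = ⊥ := by
  rw [eq_bot_iff]
  refine egS_le fun i hi => ?_
  have h1 : m ≤ i := hi
  have h0 : (0 : ℤ) ≤ M := Int.natCast_nonneg M
  have h2 : |i| = i := abs_of_nonneg (by omega)
  rw [hM i (by rw [h2]; omega)]

theorem egS_Ici_top (hs : Spl k h) {M : ℕ} (hM : ∀ i : ℤ, (M : ℤ) < |i| → egs k h i = ⊥) {m : ℤ}
    (hm : m ≤ -(M : ℤ)) : egS k h (Set.Ici m) = ⊤ := by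
  rw [eq_top_iff, ← hs]
  refine iSup_le fun i => ?_
  rcases le_or_gt m i with h1 | h1
  · exact egs_le h1
  · have h2 : |i| = -i := abs_of_neg (by omega)
    rw [hM i (by rw [h2]; omega)]
    exact bot_le

theorem nil_pos [Module.Finite k L] (hs : Spl k h) {x : L} (hx : x ∈ egS k h (Set.Ioi 0)) :
    Nil k x := by
  obtain ⟨M, hM⟩ := exists_bound (k := k) h
  have h1 : ∀ n : ℕ, ∀ y : L, ((LieAlgebra.ad k L x) ^ n) y ∈ egS k h (Set.Ici (-(M : ℤ) + n)) := by
    intro n
    induction n with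
    | zero =>
      intro y
      rw [egS_Ici_top hs hM (by simp)]
      trivial
    | succ n ih =>
      intro y
      rw [pow_succ', Module.End.mul_apply]
      refine lie_mem_egS ?_ hx (ih y)
      intro i hi j hj
      simp only [Set.mem_Ioi, Set.mem_Ici] at *
      push_cast
      omega
  refine ⟨2 * M + 1, LinearMap.ext fun y => ?_⟩
  have := h1 (2 * M + 1) y
  rw [egS_Ici_bot hM (by push_cast; omega)] at this
  simpa using this

theorem neg_preimage_Ioi : (Neg.neg ⁻¹' (Set.Ioi (0 : ℤ)) : Set ℤ) = Set.Iio 0 := by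
  ext i; simp

theorem neg_preimage_Iio : (Neg.neg ⁻¹' (Set.Iio (0 : ℤ)) : Set ℤ) = Set.Ioi 0 := by
  ext i; simp

theorem neg_preimage_Ici : (Neg.neg ⁻¹' (Set.Ici (0 : ℤ)) : Set ℤ) = Set.Iic 0 := by
  ext i; simp

theorem nil_neg [Module.Finite k L] (hs : Spl k h) {x : L} (hx : x ∈ egS k h (Set.Iio 0)) :
    Nil k x := by
  refine nil_pos (h := -h) (Spl.neg hs) ?_
  rw [egS_neg, neg_preimage_Ioi]
  exact hx

theorem egs_indep (h : L) : iSupIndep fun i : ℤ => egs k h i :=
  (Module.End.eigenspaces_iSupIndep (LieAlgebra.ad k L h)).comp Int.cast_injective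

theorem disjoint_egS {S T : Set ℤ} (hST : Disjoint S T) : Disjoint (egS k h S) (egS k h T) :=
  (egs_indep (k := k) h).disjoint_biSup_biSup hST

theorem isCompl_egS (hs : Spl k h) {S T : Set ℤ} (hST : IsCompl S T) :
    IsCompl (egS k h S) (egS k h T) := by
  refine ⟨disjoint_egS hST.disjoint, ?_⟩
  rw [codisjoint_iff, eq_top_iff, ← hs]
  refine iSup_le fun i => ?_
  have h0 : i ∈ S ⊔ T := by rw [hST.sup_eq_top]; trivial
  rcases h0 with h1 | h1
  · exact (egs_le h1).trans le_sup_left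
  · exact (egs_le h1).trans le_sup_right

/-- A subspace which is stable under `ad h` is graded. -/
theorem graded [Module.Finite k L] (hs : Spl k h) (P : Submodule k L) (hP : ∀ x ∈ P, ⁅h, x⁆ ∈ P) :
    P = ⨆ i : ℤ, P ⊓ egs k h i := by
  have h1 : ⨆ μ : k, (LieAlgebra.ad k L h).genEigenspace μ 1 = ⊤ := by
    rw [eq_top_iff, ← hs]
    exact iSup_le fun i => le_iSup (fun μ : k => (LieAlgebra.ad k L h).genEigenspace μ 1) (i : k)
  have h2 := Submodule.eq_iSup_inf_genEigenspace (K := k) (V := L) (p := P)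
    (f := LieAlgebra.ad k L h) 1 (fun x hx => hP x hx) h1
  apply le_antisymm
  · conv_lhs => rw [h2]
    refine iSup_le fun μ => ?_
    by_cases hμ : ∃ i : ℤ, (i : k) = μ
    · obtain ⟨i, rfl⟩ := hμ
      exact le_iSup (fun i : ℤ => P ⊓ egs k h i) i
    · have h3 : (LieAlgebra.ad k L h).genEigenspace μ 1 = ⊥ := by
        have hi := Module.End.eigenspaces_iSupIndep (LieAlgebra.ad k L h) μ
        have h4 : (⨆ j, ⨆ (_ : j ≠ μ), (LieAlgebra.ad k L h).eigenspace j) = ⊤ := by
          rw [eq_top_iff, ← hs]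
          refine iSup_le fun i => ?_
          exact le_iSup₂_of_le (i : k) (fun h5 => hμ ⟨i, h5⟩) le_rfl
        rw [h4] at hi
        exact disjoint_top.1 hi
      rw [h3, inf_bot_eq]
      exact bot_le
  · exact iSup_le fun i => inf_le_left

end grading

end Vale.Agent.P092.H542.Rp
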