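import Vale.Agent.P092.H542.Rp.Gen

/-!
P092, project RP, row P4 (helper542): the group generated by the two opposite unipotent radicals is
everything; the group part.
-/

set_option linter.all false

open Finset Module

namespace Vale.Agent.P092.H542.Rp

open Vale.Agent.P092.H213.Rp (Nil eu egs Spl egS IsAut)

variable {k L : Type} [Field k] [CharZero k] [LieRing L] [LieAlgebra k L] [Module.Finite k L]
  {h : L} {G : Type*} [Group G]

/-- the group generated by the opposite unipotent radicals -/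
def Gp (ρ : G →* Module.End k L) (h : L) : Subgroup G :=
  Subgroup.closure {g : G | ∃ x, (x ∈ egS k h (Set.Ioi 0) ∨ x ∈ egS k h (Set.Iio 0)) ∧ ρ g = eu k x}

/-- the hypotheses on the group -/
structure Hyp (ρ : G →* Module.End k L) : Prop where
  simple : LieAlgebra.IsSimple k L
  inj : Function.Injective ρ
  lie : ∀ g (x y : L), ρ g ⁅x, y⁆ = ⁅ρ g x, ρ g y⁆
  full : ∀ x : L, Nil k x → ∃ g, ρ g = eu k x
  gen : Subgroup.closure {g : G | ∃ x : L, Nil k x ∧ ρ g = eu k x} = ⊤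

variable {ρ : G →* Module.End k L}

theorem Hyp.au (H : Hyp ρ) (g : G) : Au (ρ g) (ρ g⁻¹) :=
  ⟨by rw [← map_mul, mul_inv_cancel, map_one], by rw [← map_mul, inv_mul_cancel, map_one], H.lie g⟩

theorem Hyp.inv (H : Hyp ρ) {g : G} {x : L} (hx : Nil k x) (hg : ρ g = eu k x) :
    ρ g⁻¹ = eu k (-x) := by
  calc ρ g⁻¹ = ρ g⁻¹ * (eu k x * eu k (-x)) := by rw [eu_mul_neg hx, mul_one]
    _ = eu k (-x) := by rw [← mul_assoc, ← hg, ← map_mul, inv_mul_cancel, map_one, one_mul]

theorem ad_bracket (x y : L) : LieAlgebra.ad k L ⁅x, y⁆ =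
    LieAlgebra.ad k L x * LieAlgebra.ad k L y - LieAlgebra.ad k L y * LieAlgebra.ad k L x := by
  ext z
  simp

/-- exponentials and stability under derivations, on a tensor power. -/
theorem dv_stable {ι : Type*} [Fintype ι] [DecidableEq ι] {x : L}
    (S : Submodule k (PiTensorProduct k fun _ : ι => L)) (hx : Nil k x)
    (hS : ∀ t : k, ∀ w ∈ S, tn ι (eu k (t • x)) w ∈ S) :
    ∀ w ∈ S, dv ι (LieAlgebra.ad k L x) w ∈ S := by
  intro w hw
  obtain ⟨N, hN⟩ := isNilpotent_dv' (ι := ι) (A := LieAlgebra.ad k L x) hx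
  have h1 : ∀ t : k, ∑ i ∈ range (N + 2),
      t ^ i • (((i.factorial : k)⁻¹) • ((dv ι (LieAlgebra.ad k L x)) ^ i) w) ∈ S := by
    intro t
    have h2 := hS t w hw
    rw [eu_eq (Nil.smul hx t), ← ex_dv (Nil.smul hx t), map_smul, map_smul,
      ex_eq_sum (n := N + 2) (by
        rw [smul_pow, pow_add (dv ι (LieAlgebra.ad k L x)), hN, zero_mul, smul_zero]),
      LinearMap.sum_apply] at h2
    convert h2 using 1
    refine sum_congr rfl fun i _ => ?_
    rw [smul_pow, LinearMap.smul_apply, LinearMap.smul_apply, smul_comm]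
  have h2 := coeff_mem S (N + 2) _ h1 1 (by omega)
  simpa using h2

theorem ex_stable {ι : Type*} [Fintype ι] [DecidableEq ι] {x : L}
    (S : Submodule k (PiTensorProduct k fun _ : ι => L)) (hx : Nil k x)
    (hS : ∀ w ∈ S, dv ι (LieAlgebra.ad k L x) w ∈ S) :
    ∀ w ∈ S, tn ι (eu k x) w ∈ S := by
  intro w hw
  rw [eu_eq hx, ← ex_dv hx]
  obtain ⟨N, hN⟩ := isNilpotent_dv' (ι := ι) (A := LieAlgebra.ad k L x) hx
  rw [ex_eq_sum hN, LinearMap.sum_apply]
  have h1 : ∀ i : ℕ, ((dv ι (LieAlgebra.ad k L x)) ^ i) w ∈ S := by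
    intro i
    induction i with
    | zero => simpa using hw
    | succ i ih => rw [pow_succ', Module.End.mul_apply]; exact hS _ ih
  exact S.sum_mem fun i _ => S.smul_mem _ (h1 i)

/-- **Every element of the group is, up to the group generated by the opposite unipotent radicals,
in the big cell.** -/
theorem big (H : Hyp ρ) (hs : Spl k h) (hh : h ≠ 0) (g : G) :
    ∃ a ∈ Gp ρ h, IsCompl ((egS k h (Set.Ici 0)).map (ρ (a * g))) (egS k h (Set.Iio 0)) := by
  classical
  haveI := H.simple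
  set P := egS k h (Set.Ici 0) with hP
  set Q := egS k h (Set.Iio 0) with hQ
  have hPQ : IsCompl P Q := isCompl_egS hs isCompl_Ici_Iio
  let S : Submodule k (PiTensorProduct k fun _ : Fin (finrank k P) => L) :=
    { carrier := {w | ∀ a ∈ Gp ρ h, phi hPQ (tn _ (ρ a) w) = 0}
      add_mem' := fun {u w} hu hw a ha => by rw [map_add, map_add, hu a ha, hw a ha, add_zero]
      zero_mem' := fun a ha => by rw [map_zero, map_zero]
      smul_mem' := fun c u hu a ha => by rw [map_smul, map_smul, hu a ha, smul_zero] }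
  have hSmem : ∀ w, w ∈ S ↔ ∀ a ∈ Gp ρ h, phi hPQ (tn _ (ρ a) w) = 0 := fun w => Iff.rfl
  have hSG' : ∀ a ∈ Gp ρ h, ∀ w ∈ S, tn _ (ρ a) w ∈ S := by
    intro a ha w hw
    rw [hSmem]
    intro c hc
    rw [← Module.End.mul_apply, ← tn_mul, ← map_mul]
    exact hw (c * a) ((Gp ρ h).mul_mem hc ha)
  have hder : ∀ x : L, (x ∈ egS k h (Set.Ioi 0) ∨ x ∈ egS k h (Set.Iio 0)) →
      ∀ w ∈ S, dv _ (LieAlgebra.ad k L x) w ∈ S := by
    intro x hx
    have hn : Nil k x := by
      rcases hx with hx | hx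
      · exact nil_pos hs hx
      · exact nil_neg hs hx
    refine dv_stable S hn fun t w hw => ?_
    obtain ⟨a, ha⟩ := H.full (t • x) (Nil.smul hn t)
    rw [← ha]
    refine hSG' a (Subgroup.subset_closure ⟨t • x, ?_, ha⟩) w hw
    rcases hx with hx | hx
    · exact Or.inl (Submodule.smul_mem _ _ hx)
    · exact Or.inr (Submodule.smul_mem _ _ hx)
  let s : LieSubalgebra k L :=
    { carrier := {x | ∀ w ∈ S, dv (Fin (finrank k P)) (LieAlgebra.ad k L x) w ∈ S}
      add_mem' := fun {x y} hx hy w hw => by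
        rw [map_add, map_add, LinearMap.add_apply]; exact S.add_mem (hx w hw) (hy w hw)
      zero_mem' := fun w hw => by rw [map_zero, map_zero]; exact S.zero_mem
      smul_mem' := fun c x hx w hw => by
        rw [map_smul, map_smul, LinearMap.smul_apply]; exact S.smul_mem c (hx w hw)
      lie_mem' := fun {x y} hx hy w hw => by
        rw [ad_bracket, dv_comm, LinearMap.sub_apply, Module.End.mul_apply,
          Module.End.mul_apply]
        exact S.sub_mem (hx _ (hy _ hw)) (hy _ (hx _ hw)) }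
  have htop := sub_top H.simple hs hh s (fun x hx => hder x (Or.inl hx))
    (fun x hx => hder x (Or.inr hx))
  have hG : ∀ g : G, (∀ w ∈ S, tn _ (ρ g) w ∈ S) ∧ (∀ w ∈ S, tn _ (ρ g⁻¹) w ∈ S) := by
    intro g
    have hg : g ∈ Subgroup.closure {g : G | ∃ x : L, Nil k x ∧ ρ g = eu k x} := by
      rw [H.gen]; trivial
    induction hg using Subgroup.closure_induction with
    | mem g hg =>
      obtain ⟨x, hx, hgx⟩ := hg
      rw [hgx, H.inv hx hgx]
      exact ⟨ex_stable S hx (htop x), ex_stable S (Nil.neg hx) (htop (-x))⟩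
    | one => simp only [map_one, inv_one, tn_one, Module.End.one_apply]; exact ⟨fun w hw => hw, fun w hw => hw⟩
    | mul a b _ _ ha hb =>
      refine ⟨fun w hw => ?_, fun w hw => ?_⟩
      · rw [map_mul, tn_mul, Module.End.mul_apply]
        exact ha.1 _ (hb.1 _ hw)
      · rw [mul_inv_rev, map_mul, tn_mul, Module.End.mul_apply]
        exact hb.2 _ (ha.2 _ hw)
    | inv a _ ha =>
      rw [inv_inv]
      exact ⟨ha.2, ha.1⟩
  have hv : vP P ∉ S := by
    intro hv
    have h1 := hv 1 (Gp ρ h).one_mem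
    rw [map_one, tn_one, Module.End.one_apply, phi_one] at h1
    exact one_ne_zero h1
  have hgv : tn _ (ρ g) (vP P) ∉ S := by
    intro h1
    apply hv
    have h2 := (hG g).2 _ h1
    rwa [← Module.End.mul_apply, ← tn_mul, ← map_mul, inv_mul_cancel, map_one, tn_one,
      Module.End.one_apply] at h2
  rw [hSmem] at hgv
  push Not at hgv
  obtain ⟨a, ha, hne⟩ := hgv
  rw [← Module.End.mul_apply, ← tn_mul, ← map_mul] at hne
  exact ⟨a, ha, isCompl_of_phi hPQ hne⟩

theorem Gp_pos (H : Hyp ρ) {g : G} {x : L} (hx : x ∈ egS k h (Set.Ioi 0)) (hg : ρ g = eu k x) :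
    g ∈ Gp ρ h := Subgroup.subset_closure ⟨x, Or.inl hx, hg⟩

theorem Gp_neg (H : Hyp ρ) {g : G} {x : L} (hx : x ∈ egS k h (Set.Iio 0)) (hg : ρ g = eu k x) :
    g ∈ Gp ρ h := Subgroup.subset_closure ⟨x, Or.inr hx, hg⟩

/-- elements preserving `L_{≥0}` normalise the group -/
theorem conj_mem (H : Hyp ρ) (hs : Spl k h) {p : G}
    (h1 : ∀ x ∈ egS k h (Set.Ici 0), ρ p x ∈ egS k h (Set.Ici 0))
    (h2 : ∀ x ∈ egS k h (Set.Ici 0), ρ p⁻¹ x ∈ egS k h (Set.Ici 0)) {u : G} (hu : u ∈ Gp ρ h) :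
    p * u * p⁻¹ ∈ Gp ρ h := by
  haveI := H.simple
  have hau := H.au p
  induction hu using Subgroup.closure_induction with
  | mem u hu =>
    obtain ⟨x, hx, hux⟩ := hu
    have hn : Nil k x := by
      rcases hx with hx | hx
      · exact nil_pos hs hx
      · exact nil_neg hs hx
    have e1 : ρ (p * u * p⁻¹) = eu k (ρ p x) := by
      rw [map_mul, map_mul, hux]
      exact hau.conj hn
    rcases hx with hx | hx
    · exact Gp_pos H (hau.map_Ioi hs h2 hx) e1
    · obtain ⟨z, hz, hzq⟩ := levi hs hau h1 h2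
      have hnz : Nil k z := nil_pos hs hz
      obtain ⟨c, hc⟩ := H.full z hnz
      have hcG : c ∈ Gp ρ h := Gp_pos H hz hc
      -- `c⁻¹ p` preserves `L_{≤0}`
      have hau2 := H.au (c⁻¹ * p)
      have h3 : ∀ y ∈ egS k h (Set.Iic 0), ρ (c⁻¹ * p)⁻¹ y ∈ egS k h (Set.Iic 0) := by
        intro y hy
        have h4 : eu k z y ∈ (egS k h (Set.Iic 0)).map (eu k z) := ⟨y, hy, rfl⟩
        rw [← hzq] at h4
        obtain ⟨w, hw, hw2⟩ := h4
        rw [mul_inv_rev, inv_inv, map_mul, Module.End.mul_apply, hc, ← hw2, hau.l_apply]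
        exact hw
      have h5 : ρ (c⁻¹ * p) x ∈ egS k h (Set.Iio 0) := hau2.map_Iio hs h3 hx
      have hn5 : Nil k (ρ (c⁻¹ * p) x) := nil_neg hs h5
      obtain ⟨d, hd⟩ := H.full _ hn5
      have hdG : d ∈ Gp ρ h := Gp_neg H h5 hd
      have e2 : p * u * p⁻¹ = c * d * c⁻¹ := by
        apply H.inj
        rw [e1, map_mul, map_mul, hd, (H.au c).conj hn5, ← Module.End.mul_apply, ← map_mul,
          mul_inv_cancel_left]
      rw [e2]
      exact (Gp ρ h).mul_mem ((Gp ρ h).mul_mem hcG hdG) ((Gp ρ h).inv_mem hcG)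
  | one => simpa using (Gp ρ h).one_mem
  | mul a b _ _ ha hb =>
    have : p * (a * b) * p⁻¹ = (p * a * p⁻¹) * (p * b * p⁻¹) := by group
    rw [this]
    exact (Gp ρ h).mul_mem ha hb
  | inv a _ ha =>
    have : p * a⁻¹ * p⁻¹ = (p * a * p⁻¹)⁻¹ := by group
    rw [this]
    exact (Gp ρ h).inv_mem ha

/-- `G = G' P` -/
theorem exists_par (H : Hyp ρ) (hs : Spl k h) (hh : h ≠ 0) (g : G) :
    ∃ a ∈ Gp ρ h, (∀ x ∈ egS k h (Set.Ici 0), ρ (a * g) x ∈ egS k h (Set.Ici 0)) ∧
      (∀ x ∈ egS k h (Set.Ici 0), ρ (a * g)⁻¹ x ∈ egS k h (Set.Ici 0)) := by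
  haveI := H.simple
  obtain ⟨a, ha, hc⟩ := big H hs hh g
  obtain ⟨y, hy, hyq⟩ := par hs ((H.au (a * g)).sub (qge k h)) (by
    rw [Au.sub_toSubmodule, qge_toSubmodule]; exact hc)
  rw [Au.sub_toSubmodule, qge_toSubmodule] at hyq
  have hny : Nil k y := nil_neg hs hy
  obtain ⟨c, hc⟩ := H.full y hny
  have hcG : c ∈ Gp ρ h := Gp_neg H hy hc
  refine ⟨c⁻¹ * a, (Gp ρ h).mul_mem ((Gp ρ h).inv_mem hcG) ha, ?_, ?_⟩
  · intro x hx
    have h2 : ρ (a * g) x ∈ (egS k h (Set.Ici 0)).map (ρ (a * g)) := ⟨x, hx, rfl⟩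
    rw [hyq] at h2
    obtain ⟨w, hw, hw2⟩ := h2
    rw [mul_assoc, map_mul, Module.End.mul_apply, ← hw2, ← hc, (H.au c).l_apply]
    exact hw
  · intro x hx
    have h2 : ρ c x ∈ (egS k h (Set.Ici 0)).map (eu k y) := ⟨x, hx, by rw [hc]⟩
    rw [← hyq] at h2
    obtain ⟨w, hw, hw2⟩ := h2
    have e1 : (c⁻¹ * a * g)⁻¹ = (a * g)⁻¹ * c := by group
    rw [e1, map_mul, Module.End.mul_apply, ← hw2, (H.au (a * g)).l_apply]
    exact hw

theorem Gp_normal (H : Hyp ρ) (hs : Spl k h) (hh : h ≠ 0) : (Gp ρ h).Normal := by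
  constructor
  intro u hu g
  obtain ⟨a, ha, h1, h2⟩ := exists_par H hs hh g
  have h3 := conj_mem H hs h1 h2 hu
  have e1 : g * u * g⁻¹ = a⁻¹ * ((a * g) * u * (a * g)⁻¹) * a := by group
  rw [e1]
  exact (Gp ρ h).mul_mem ((Gp ρ h).mul_mem ((Gp ρ h).inv_mem ha) h3) ha

theorem eq_zero_of_ex {A : Type*} [Ring A] [Algebra k A] {a : A} (ha : IsNilpotent a)
    (h1 : ex k a = 1) : a = 0 := by
  have ha' := ha
  obtain ⟨n, hn⟩ := ha
  rw [ex_eq_sum (n := n + 2) (by rw [pow_add, hn, zero_mul]), sum_range_succ', sum_range_succ'] at h1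
  set d : A := ∑ i ∈ range n, (((i + 2).factorial : k)⁻¹) • a ^ i with hd
  have hcomm : Commute a d :=
    Commute.sum_right _ _ _ fun i _ => ((Commute.refl a).pow_right i).smul_right _
  have e1 : ∑ i ∈ range n, (((i + 1 + 1).factorial : k)⁻¹) • a ^ (i + 1 + 1) = a * (a * d) := by
    rw [hd, mul_sum, mul_sum]
    refine sum_congr rfl fun i _ => ?_
    rw [mul_smul_comm, mul_smul_comm, pow_succ', pow_succ']
  rw [e1] at h1
  have h2 : a * (1 + a * d) = 0 := by
    simp only [zero_add, Nat.factorial_one, Nat.cast_one, inv_one, pow_one, one_smul,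
      Nat.factorial_zero, pow_zero] at h1
    have h3 : a * (a * d) + a = 0 := by
      have := h1
      exact add_right_cancel (b := (1 : A)) (by rw [this, zero_add])
    rw [mul_add, mul_one, add_comm]
    exact h3
  have hu : IsUnit (1 + a * d) := (hcomm.isNilpotent_mul_right ha').isUnit_one_add
  obtain ⟨u, hu⟩ := hu
  rw [← hu] at h2
  exact (Units.mul_left_eq_zero u).1 h2

theorem eu_ne_one [LieAlgebra.IsKilling k L] {x : L} (hx : Nil k x) (hx0 : x ≠ 0) : eu k x ≠ 1 := by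
  intro h1
  apply hx0
  have h2 : ex k (LieAlgebra.ad k L x) = 1 := by rw [← eu_eq hx]; exact h1
  have h4 : LieAlgebra.ad k L x = 0 := eq_zero_of_ex hx h2
  apply eq_zero_of_lie (k := k)
  intro y
  have := congrArg (fun f : Module.End k L => f y) h4
  simpa using this

/-- **The group is generated by the opposite unipotent radicals.** -/
theorem gen_of' (H : Hyp ρ) (hsim : ∀ N : Subgroup G, N.Normal → N = ⊥ ∨ N = ⊤)
    (hs : Spl k h) (hh : h ≠ 0) : Gp ρ h = ⊤ := by
  haveI := H.simple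
  rcases hsim _ (Gp_normal H hs hh) with hb | ht
  · exfalso
    obtain ⟨x, hx0, hx⟩ := exists_ne_zero (k := k) hs hh
    have hn : Nil k x := by
      rcases hx with hx | hx
      · exact nil_pos hs hx
      · exact nil_neg hs hx
    obtain ⟨g, hg⟩ := H.full x hn
    have h1 : g ∈ Gp ρ h := Subgroup.subset_closure ⟨x, hx, hg⟩
    rw [hb, Subgroup.mem_bot] at h1
    rw [h1, map_one] at hg
    exact eu_ne_one hn hx0 hg.symm
  · exact ht

end Vale.Agent.P092.H542.Rp
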